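import Mathlib

/-!
# P015 helper library: thin composite walls across a strip around an arbitrary line
-/

namespace Vale.Agent.Lib.P015.Walls

open Zsqrtd

/-- transverse linear coordinate -/
def Lf (a b : ℝ) (g : GaussianInt) : ℝ := a * (g.re : ℝ) + b * (g.im : ℝ)
/-- longitudinal linear coordinate -/
def Sf (a b : ℝ) (g : GaussianInt) : ℝ := -b * (g.re : ℝ) + a * (g.im : ℝ)

lemma Lf_sub (a b : ℝ) (g h : GaussianInt) : Lf a b (g - h) = Lf a b g - Lf a b h := by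
  simp only [Lf, Zsqrtd.re_sub, Zsqrtd.im_sub]; push_cast; ring

lemma Sf_sub (a b : ℝ) (g h : GaussianInt) : Sf a b (g - h) = Sf a b g - Sf a b h := by
  simp only [Sf, Zsqrtd.re_sub, Zsqrtd.im_sub]; push_cast; ring

lemma norm_real (g : GaussianInt) : (g.norm : ℝ) = ‖(g : ℂ)‖ ^ 2 := by
  rw [GaussianInt.intCast_real_norm, Complex.normSq_eq_norm_sq]

lemma norm_real' (g : GaussianInt) : (g.norm : ℝ) = (g.re : ℝ) ^ 2 + (g.im : ℝ) ^ 2 := by
  rw [Zsqrtd.norm]; push_cast; ring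

lemma LS_norm (a b : ℝ) (hab : a ^ 2 + b ^ 2 = 1) (g : GaussianInt) :
    Lf a b g ^ 2 + Sf a b g ^ 2 = (g.norm : ℝ) := by
  rw [norm_real']
  have : Lf a b g ^ 2 + Sf a b g ^ 2 = (a ^ 2 + b ^ 2) * ((g.re : ℝ) ^ 2 + (g.im : ℝ) ^ 2) := by
    simp only [Lf, Sf]; ring
  rw [this, hab, one_mul]

lemma abs_Sf_le (a b : ℝ) (hab : a ^ 2 + b ^ 2 = 1) (g : GaussianInt) :
    |Sf a b g| ≤ ‖(g : ℂ)‖ := by
  have h1 := LS_norm a b hab g
  rw [norm_real] at h1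
  apply abs_le_of_sq_le_sq _ (norm_nonneg _)
  nlinarith [sq_nonneg (Lf a b g)]

lemma abs_Lf_le (a b : ℝ) (hab : a ^ 2 + b ^ 2 = 1) (g : GaussianInt) :
    |Lf a b g| ≤ ‖(g : ℂ)‖ := by
  have h1 := LS_norm a b hab g
  rw [norm_real] at h1
  apply abs_le_of_sq_le_sq _ (norm_nonneg _)
  nlinarith [sq_nonneg (Sf a b g)]

lemma ivt (σ : ℕ → ℝ) (D t : ℝ) (hstep : ∀ n, |σ (n + 1) - σ n| ≤ D) (m : ℕ)
    (h0 : σ 0 < t) (hm : t ≤ σ m) : ∃ n ≤ m, t ≤ σ n ∧ σ n ≤ t + D := by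
  classical
  have hex : ∃ n, t ≤ σ n := ⟨m, hm⟩
  refine ⟨Nat.find hex, Nat.find_min' hex hm, Nat.find_spec hex, ?_⟩
  rcases Nat.eq_zero_or_pos (Nat.find hex) with h | h
  · have := Nat.find_spec hex
    rw [h] at this
    linarith
  · obtain ⟨k, hk⟩ : ∃ k, Nat.find hex = k + 1 := ⟨Nat.find hex - 1, by omega⟩
    have h1 : ¬ t ≤ σ k := Nat.find_min hex (by omega)
    rw [hk]
    have h2 := abs_le.mp (hstep k)
    linarith [h2.2, not_le.mp h1]


lemma core (a b c D w : ℝ) (hab : a ^ 2 + b ^ 2 = 1) (hD : 0 ≤ D) (hw : 0 ≤ w)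
    (z : ℕ → GaussianInt) (hp : ∀ n, Prime (z n))
    (hstep : ∀ n, ‖((z (n + 1) : GaussianInt) : ℂ) - (z n : ℂ)‖ ≤ D)
    (m : ℕ) (hnear : ∀ n ≤ m, |Lf a b (z n) - c| ≤ w)
    (Q : ℕ) (hQpos : 0 < Q)
    (hQ : ∀ g : GaussianInt, 2 ≤ Sf a b g → Sf a b g ≤ 2 + D → |Lf a b g| ≤ 3 * w + |c| →
      g.norm ∣ (Q : ℤ))
    (hm : |Sf a b (z 0)| + 1 + (Q : ℝ) ^ 2 * (|Sf a b (z 0)| + 2 * D + (3 * w + |c|) + 3) + D + 2
      ≤ Sf a b (z m)) : False := by
  classical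
  set σ : ℕ → ℝ := fun n => Sf a b (z n) with hσ
  set Δ : ℝ := |σ 0| + 2 * D + (3 * w + |c|) + 3 with hΔ
  have hc0 : 0 ≤ |c| := abs_nonneg c
  have hs0 : 0 ≤ |σ 0| := abs_nonneg _
  have hΔpos : 0 < Δ := by rw [hΔ]; linarith
  have hσstep : ∀ n, |σ (n + 1) - σ n| ≤ D := by
    intro n
    simp only [hσ]
    rw [← Sf_sub]
    calc |Sf a b (z (n + 1) - z n)| ≤ ‖((z (n + 1) - z n : GaussianInt) : ℂ)‖ := abs_Sf_le a b hab _
      _ = ‖((z (n + 1) : GaussianInt) : ℂ) - (z n : ℂ)‖ := by rw [GaussianInt.toComplex_sub]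
      _ ≤ D := hstep n
  have hlev : ∀ k : Fin (Q ^ 2 + 1), ∃ n ≤ m,
      (|σ 0| + 1 + (k : ℝ) * Δ ≤ σ n ∧ σ n ≤ |σ 0| + 1 + (k : ℝ) * Δ + D) := by
    intro k
    apply ivt σ D _ hσstep m
    · have h1 := le_abs_self (σ 0)
      have h2 : 0 ≤ ((k : ℕ) : ℝ) * Δ := by positivity
      linarith
    · have hk : ((k : ℕ) : ℝ) ≤ (Q : ℝ) ^ 2 := by
        have := Nat.lt_succ_iff.mp k.2
        exact_mod_cast this
      have h3 : ((k : ℕ) : ℝ) * Δ ≤ (Q : ℝ) ^ 2 * Δ := mul_le_mul_of_nonneg_right hk hΔpos.le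
      linarith
  choose N hNm hN1 hN2 using hlev
  have : NeZero Q := ⟨hQpos.ne'⟩
  have hcard : Fintype.card (ZMod Q × ZMod Q) < Fintype.card (Fin (Q ^ 2 + 1)) := by
    rw [Fintype.card_prod, ZMod.card, Fintype.card_fin]
    nlinarith
  obtain ⟨k, k', hkk', hres⟩ := Fintype.exists_ne_map_eq_of_card_lt
    (fun k => ((((z (N k)).re : ℤ) : ZMod Q), (((z (N k)).im : ℤ) : ZMod Q))) hcard
  wlog hlt : k < k' generalizing k k'
  · exact this k' k hkk'.symm hres.symm (lt_of_le_of_ne (not_lt.mp hlt) hkk'.symm)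
  set C := z (N k') - z (N k) with hC
  have hCdvd : (((Q : ℕ) : ℤ) : GaussianInt) ∣ C := by
    have h1 := (Prod.ext_iff.mp hres).1
    have h2 := (Prod.ext_iff.mp hres).2
    simp only at h1 h2
    rw [ZMod.intCast_eq_intCast_iff_dvd_sub] at h1 h2
    rw [Zsqrtd.intCast_dvd]
    exact ⟨by simpa [hC] using h1, by simpa [hC] using h2⟩
  have hkk : ((k : ℕ) : ℝ) + 1 ≤ ((k' : ℕ) : ℝ) := by
    have : (k : ℕ) + 1 ≤ (k' : ℕ) := hlt
    exact_mod_cast this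
  have hk'Q : ((k' : ℕ) : ℝ) ≤ (Q : ℝ) ^ 2 := by
    have := Nat.lt_succ_iff.mp k'.2
    exact_mod_cast this
  have hk0 : (0 : ℝ) ≤ ((k : ℕ) : ℝ) := by positivity
  have hSC : Sf a b C = σ (N k') - σ (N k) := by rw [hC, Sf_sub]
  have hSC1 : Δ - D ≤ Sf a b C := by
    rw [hSC]
    have e1 := hN1 k'
    have e2 := hN2 k
    have e3 : (((k : ℕ) : ℝ) + 1) * Δ ≤ ((k' : ℕ) : ℝ) * Δ := mul_le_mul_of_nonneg_right hkk hΔpos.le
    linarith
  have hSC2 : Sf a b C ≤ (Q : ℝ) ^ 2 * Δ + D := by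
    rw [hSC]
    have e1 := hN2 k'
    have e2 := hN1 k
    have e3 : ((k' : ℕ) : ℝ) * Δ ≤ (Q : ℝ) ^ 2 * Δ := mul_le_mul_of_nonneg_right hk'Q hΔpos.le
    have e4 : 0 ≤ ((k : ℕ) : ℝ) * Δ := by positivity
    linarith
  have hLC : |Lf a b C| ≤ 2 * w := by
    rw [hC, Lf_sub]
    have e1 := abs_le.mp (hnear (N k') (hNm k'))
    have e2 := abs_le.mp (hnear (N k) (hNm k))
    rw [abs_le]
    constructor <;> linarith [e1.1, e1.2, e2.1, e2.2]
  obtain ⟨n, hnm, hn1, hn2⟩ := ivt σ D (Sf a b C + 2) hσstep m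
    (by have h1 := le_abs_self (σ 0); linarith) (by linarith)
  set g := z n - C with hg
  have hSg : Sf a b g = σ n - Sf a b C := by rw [hg, Sf_sub]
  have hSg1 : 2 ≤ Sf a b g := by rw [hSg]; linarith
  have hSg2 : Sf a b g ≤ 2 + D := by rw [hSg]; linarith
  have hLg : |Lf a b g| ≤ 3 * w + |c| := by
    rw [hg, Lf_sub]
    have e1 := abs_le.mp (hnear n hnm)
    have e2 := abs_le.mp hLC
    have e3 := neg_abs_le c
    have e4 := le_abs_self c
    rw [abs_le]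
    constructor <;> linarith [e1.1, e1.2, e2.1, e2.2]
  have hgQ := hQ g hSg1 hSg2 hLg
  have hdiv1 : g ∣ ((g.norm : ℤ) : GaussianInt) := by
    rw [Zsqrtd.norm_eq_mul_conj]; exact dvd_mul_right _ _
  have hdiv3 : ((g.norm : ℤ) : GaussianInt) ∣ (((Q : ℕ) : ℤ) : GaussianInt) :=
    (Int.castRingHom GaussianInt).map_dvd hgQ
  have hdivC : g ∣ C := hdiv1.trans (hdiv3.trans hCdvd)
  have hdivz : g ∣ z n := by
    have h4 : z n = g + C := by rw [hg]; ring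
    rw [h4]; exact dvd_add dvd_rfl hdivC
  have hNg := LS_norm a b hab g
  have hNg1 : (4 : ℝ) ≤ (g.norm : ℝ) := by
    rw [← hNg]; nlinarith [sq_nonneg (Lf a b g)]
  have hNg2 : (g.norm : ℝ) ≤ (3 * w + |c|) ^ 2 + (2 + D) ^ 2 := by
    rw [← hNg]
    have e1 : Lf a b g ^ 2 ≤ (3 * w + |c|) ^ 2 := by
      have := abs_le.mp hLg
      exact sq_le_sq' this.1 this.2
    have e2 : Sf a b g ^ 2 ≤ (2 + D) ^ 2 := by
      exact sq_le_sq' (by linarith) hSg2
    linarith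
  rcases ((hp n).irreducible.dvd_iff).mp hdivz with hu | hassoc
  · have h5 := (Zsqrtd.norm_eq_one_iff' (by norm_num) g).mpr hu
    rw [h5] at hNg1
    norm_num at hNg1
  · have h5 := Zsqrtd.norm_eq_of_associated (by norm_num) hassoc
    have hNz := LS_norm a b hab (z n)
    have h6 : (Δ - D + 2) ^ 2 ≤ ((z n).norm : ℝ) := by
      rw [← hNz]
      have e1 : Δ - D + 2 ≤ Sf a b (z n) := by
        have : Sf a b (z n) = σ n := rfl
        rw [this]; linarith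
      have e2 : 0 ≤ Δ - D + 2 := by rw [hΔ]; linarith
      nlinarith [sq_nonneg (Lf a b (z n))]
    rw [h5] at h6
    have h7 : (3 * w + |c|) + (2 + D) + 3 ≤ Δ - D + 2 := by rw [hΔ]; linarith
    have h8 : 0 ≤ 3 * w + |c| := by linarith
    nlinarith

lemma finite_norm_le (K : ℤ) : {g : GaussianInt | g.norm ≤ K}.Finite := by
  have hsub : {g : GaussianInt | g.norm ≤ K} ⊆
      (fun p : ℤ × ℤ => (⟨p.1, p.2⟩ : GaussianInt)) '' (Set.Icc (-K) K ×ˢ Set.Icc (-K) K) := by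
    intro g hg
    refine ⟨(g.re, g.im), ?_, rfl⟩
    simp only [Set.mem_prod, Set.mem_Icc]
    have h0 : g.re * g.re + g.im * g.im ≤ K := by
      have : g.norm ≤ K := hg
      rw [Zsqrtd.norm] at this
      linarith
    have h1 := Int.le_self_sq g.re
    have h2 := Int.le_self_sq (-g.re)
    have h3 := Int.le_self_sq g.im
    have h4 := Int.le_self_sq (-g.im)
    refine ⟨⟨by nlinarith, by nlinarith⟩, ⟨by nlinarith, by nlinarith⟩⟩
  exact Set.Finite.subset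
    (Set.Finite.image _ ((Set.finite_Icc _ _).prod (Set.finite_Icc _ _))) hsub

lemma wallQ (a b H D : ℝ) (hab : a ^ 2 + b ^ 2 = 1) (hH : 0 ≤ H) (hD : 0 ≤ D) :
    ∃ (Q nW : ℕ), 0 < Q ∧
      (∀ g : GaussianInt, 2 ≤ Sf a b g → Sf a b g ≤ 2 + D → |Lf a b g| ≤ H → g.norm ∣ (Q : ℤ)) ∧
      (Q : ℝ) ≤ (H ^ 2 + (2 + D) ^ 2) ^ nW ∧ (nW : ℝ) ≤ (4 * H + 2) * (2 * D + 1) := by
  classical
  set W : Set GaussianInt := {g | 2 ≤ Sf a b g ∧ Sf a b g ≤ 2 + D ∧ |Lf a b g| ≤ H} with hW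
  have hbound : ∀ g ∈ W, (4 : ℝ) ≤ (g.norm : ℝ) ∧ (g.norm : ℝ) ≤ H ^ 2 + (2 + D) ^ 2 := by
    intro g hg
    obtain ⟨h1, h2, h3⟩ := hg
    have hN := LS_norm a b hab g
    constructor
    · rw [← hN]; nlinarith [sq_nonneg (Lf a b g)]
    · rw [← hN]
      have e1 : Lf a b g ^ 2 ≤ H ^ 2 := by
        have := abs_le.mp h3
        exact sq_le_sq' this.1 this.2
      have e2 : Sf a b g ^ 2 ≤ (2 + D) ^ 2 := sq_le_sq' (by linarith) h2
      linarith
  have hfin : W.Finite := by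
    refine (finite_norm_le ⌈H ^ 2 + (2 + D) ^ 2⌉).subset ?_
    intro g hg
    have h1 := (hbound g hg).2
    have h2 : (g.norm : ℝ) ≤ (⌈H ^ 2 + (2 + D) ^ 2⌉ : ℝ) := le_trans h1 (Int.le_ceil _)
    show g.norm ≤ ⌈H ^ 2 + (2 + D) ^ 2⌉
    exact_mod_cast h2
  set Wf : Finset GaussianInt := hfin.toFinset with hWf
  have hmem : ∀ g, g ∈ Wf ↔ g ∈ W := fun g => hfin.mem_toFinset
  refine ⟨∏ g ∈ Wf, g.norm.natAbs, Wf.card, ?_, ?_, ?_, ?_⟩
  · refine Finset.prod_pos (fun g hg => ?_)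
    have h1 := (hbound g ((hmem g).mp hg)).1
    have h2 : (4 : ℤ) ≤ g.norm := by exact_mod_cast h1
    omega
  · intro g h1 h2 h3
    have hg : g ∈ Wf := (hmem g).mpr ⟨h1, h2, h3⟩
    rw [Int.dvd_natCast]
    exact Finset.dvd_prod_of_mem (fun g : GaussianInt => g.norm.natAbs) hg
  · push_cast
    calc ∏ g ∈ Wf, ((g.norm.natAbs : ℕ) : ℝ) ≤ ∏ _g ∈ Wf, (H ^ 2 + (2 + D) ^ 2) := by
          refine Finset.prod_le_prod (fun g _ => by positivity) (fun g hg => ?_)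
          have h1 := hbound g ((hmem g).mp hg)
          have h2 : ((g.norm.natAbs : ℕ) : ℝ) = (g.norm : ℝ) := by
            have h3 : (0 : ℤ) ≤ g.norm := GaussianInt.norm_nonneg g
            have h4 : ((g.norm.natAbs : ℕ) : ℤ) = g.norm := Int.natAbs_of_nonneg h3
            calc ((g.norm.natAbs : ℕ) : ℝ) = (((g.norm.natAbs : ℕ) : ℤ) : ℝ) := (Int.cast_natCast _).symm
              _ = (g.norm : ℝ) := by rw [h4]
          rw [h2]; exact h1.2
      _ = (H ^ 2 + (2 + D) ^ 2) ^ Wf.card := by rw [Finset.prod_const]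
  · have hinj : Wf.card ≤ (Finset.Icc ⌊-(2 * H)⌋ ⌊2 * H⌋ ×ˢ Finset.Icc (4 : ℤ) ⌊4 + 2 * D⌋).card := by
      refine Finset.card_le_card_of_injOn (fun g => (⌊2 * Lf a b g⌋, ⌊2 * Sf a b g⌋)) ?_ ?_
      · intro g hg
        obtain ⟨h1, h2, h3⟩ := (hmem g).mp (Finset.mem_coe.mp hg)
        have h3' := abs_le.mp h3
        simp only [Finset.coe_product, Finset.coe_Icc, Set.mem_prod, Set.mem_Icc]
        refine ⟨⟨Int.floor_le_floor (by linarith [h3'.1]), Int.floor_le_floor (by linarith [h3'.2])⟩,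
          ⟨Int.le_floor.mpr (by push_cast; linarith), Int.floor_le_floor (by linarith)⟩⟩
      · intro g _ g' _ heq
        have e1 : ⌊2 * Lf a b g⌋ = ⌊2 * Lf a b g'⌋ := (Prod.ext_iff.mp heq).1
        have e2 : ⌊2 * Sf a b g⌋ = ⌊2 * Sf a b g'⌋ := (Prod.ext_iff.mp heq).2
        have f1 := Int.abs_sub_lt_one_of_floor_eq_floor e1
        have f2 := Int.abs_sub_lt_one_of_floor_eq_floor e2
        have hN := LS_norm a b hab (g - g')
        rw [Lf_sub, Sf_sub] at hN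
        have f1' := abs_lt.mp f1
        have f2' := abs_lt.mp f2
        have hlt : ((g - g').norm : ℝ) < 1 := by
          rw [← hN]
          have s1 : (Lf a b g - Lf a b g') ^ 2 < 1 / 4 := by
            have : |Lf a b g - Lf a b g'| < 1 / 2 := by
              rw [abs_lt]; constructor <;> linarith [f1'.1, f1'.2]
            have h0 := abs_nonneg (Lf a b g - Lf a b g')
            rw [← sq_abs]; nlinarith
          have s2 : (Sf a b g - Sf a b g') ^ 2 < 1 / 4 := by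
            have : |Sf a b g - Sf a b g'| < 1 / 2 := by
              rw [abs_lt]; constructor <;> linarith [f2'.1, f2'.2]
            have h0 := abs_nonneg (Sf a b g - Sf a b g')
            rw [← sq_abs]; nlinarith
          linarith
        have hlt' : (g - g').norm < 1 := by exact_mod_cast hlt
        have hnn : 0 ≤ (g - g').norm := GaussianInt.norm_nonneg _
        have hz : (g - g').norm = 0 := by omega
        have := (Zsqrtd.norm_eq_zero_iff (by norm_num) (g - g')).mp hz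
        exact sub_eq_zero.mp this
    have hc1 : ((Finset.Icc ⌊-(2 * H)⌋ ⌊2 * H⌋).card : ℝ) ≤ 4 * H + 2 := by
      rw [Int.card_Icc]
      have h1 : ⌊-(2 * H)⌋ ≤ ⌊2 * H⌋ := Int.floor_le_floor (by linarith)
      have h2 : (((⌊2 * H⌋ + 1 - ⌊-(2 * H)⌋).toNat : ℕ) : ℤ) = ⌊2 * H⌋ + 1 - ⌊-(2 * H)⌋ :=
        Int.toNat_of_nonneg (by omega)
      have h3 : (((⌊2 * H⌋ + 1 - ⌊-(2 * H)⌋).toNat : ℕ) : ℝ)
          = (⌊2 * H⌋ : ℝ) + 1 - (⌊-(2 * H)⌋ : ℝ) := by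
        exact_mod_cast congrArg (fun t : ℤ => (t : ℝ)) h2
      rw [h3]
      have h4 := Int.floor_le (2 * H)
      have h5 := Int.lt_floor_add_one (-(2 * H))
      linarith
    have hc2 : ((Finset.Icc (4 : ℤ) ⌊4 + 2 * D⌋).card : ℝ) ≤ 2 * D + 1 := by
      rw [Int.card_Icc]
      have h1 : (4 : ℤ) ≤ ⌊4 + 2 * D⌋ := Int.le_floor.mpr (by push_cast; linarith)
      have h2 : (((⌊4 + 2 * D⌋ + 1 - 4).toNat : ℕ) : ℤ) = ⌊4 + 2 * D⌋ + 1 - 4 :=
        Int.toNat_of_nonneg (by omega)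
      have h3 : (((⌊4 + 2 * D⌋ + 1 - 4).toNat : ℕ) : ℝ) = (⌊4 + 2 * D⌋ : ℝ) + 1 - 4 := by
        exact_mod_cast congrArg (fun t : ℤ => (t : ℝ)) h2
      rw [h3]
      have h4 := Int.floor_le (4 + 2 * D)
      linarith
    rw [Finset.card_product] at hinj
    calc (Wf.card : ℝ) ≤ (((Finset.Icc ⌊-(2 * H)⌋ ⌊2 * H⌋).card
          * (Finset.Icc (4 : ℤ) ⌊4 + 2 * D⌋).card : ℕ) : ℝ) := by exact_mod_cast hinj
      _ = ((Finset.Icc ⌊-(2 * H)⌋ ⌊2 * H⌋).card : ℝ) * ((Finset.Icc (4 : ℤ) ⌊4 + 2 * D⌋).card : ℝ) := by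
          push_cast; ring
      _ ≤ (4 * H + 2) * (2 * D + 1) := by
          apply mul_le_mul hc1 hc2 (by positivity) (by linarith)

lemma scale_pos (a b c D w : ℝ) (hab : a ^ 2 + b ^ 2 = 1) (hD : 0 ≤ D) (hw : 0 ≤ w)
    (z : ℕ → GaussianInt) (hp : ∀ n, Prime (z n))
    (hstep : ∀ n, ‖((z (n + 1) : GaussianInt) : ℂ) - (z n : ℂ)‖ ≤ D)
    (m : ℕ) (hnear : ∀ n ≤ m, |Lf a b (z n) - c| ≤ w)
    (hm : ‖(z 0 : ℂ)‖ + 1 + Real.exp (2 * ((4 * (3 * w + |c|) + 2) * (2 * D + 1))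
        * Real.log ((3 * w + |c|) ^ 2 + (2 + D) ^ 2)) * (‖(z 0 : ℂ)‖ + 2 * D + (3 * w + |c|) + 3)
        + D + 2 ≤ Sf a b (z m)) : False := by
  have hc0 : 0 ≤ |c| := abs_nonneg c
  set H : ℝ := 3 * w + |c| with hH
  have hH0 : 0 ≤ H := by rw [hH]; linarith
  obtain ⟨Q, nW, hQpos, hQ, hQle, hnW⟩ := wallQ a b H D hab hH0 hD
  set B : ℝ := H ^ 2 + (2 + D) ^ 2 with hB
  have hB1 : 1 ≤ B := by rw [hB]; nlinarith [sq_nonneg H]
  have hB0 : 0 < B := by linarith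
  have hlogB : 0 ≤ Real.log B := Real.log_nonneg hB1
  have hQ2 : (Q : ℝ) ^ 2 ≤ Real.exp (2 * ((4 * H + 2) * (2 * D + 1)) * Real.log B) := by
    have h1 : (Q : ℝ) ^ 2 ≤ (B ^ nW) ^ 2 := by
      apply pow_le_pow_left₀ (by positivity) hQle
    have h2 : (B ^ nW) ^ 2 = Real.exp (2 * (nW : ℝ) * Real.log B) := by
      rw [← pow_mul, ← Real.rpow_natCast, Real.rpow_def_of_pos hB0]
      congr 1
      push_cast
      ring
    rw [h2] at h1
    refine le_trans h1 (Real.exp_le_exp.mpr ?_)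
    have h3 : 2 * (nW : ℝ) ≤ 2 * ((4 * H + 2) * (2 * D + 1)) := by linarith
    exact mul_le_mul_of_nonneg_right h3 hlogB
  have hs0 : |Sf a b (z 0)| ≤ ‖(z 0 : ℂ)‖ := abs_Sf_le a b hab _
  refine core a b c D w hab hD hw z hp hstep m hnear Q hQpos hQ ?_
  have hs00 : 0 ≤ |Sf a b (z 0)| := abs_nonneg _
  have h4 : (Q : ℝ) ^ 2 * (|Sf a b (z 0)| + 2 * D + (3 * w + |c|) + 3)
      ≤ Real.exp (2 * ((4 * H + 2) * (2 * D + 1)) * Real.log B)
        * (‖(z 0 : ℂ)‖ + 2 * D + H + 3) := by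
    apply mul_le_mul hQ2 (by linarith) (by linarith) (Real.exp_pos _).le
  linarith

lemma scale (a b c D : ℝ) (hab : a ^ 2 + b ^ 2 = 1)
    (z : ℕ → GaussianInt) (hinj : Function.Injective z) (hp : ∀ n, Prime (z n))
    (hstep : ∀ n, ‖((z (n + 1) : GaussianInt) : ℂ) - (z n : ℂ)‖ ≤ D)
    (X w : ℝ) (hw : 0 ≤ w)
    (hnear : ∀ n, ‖(z n : ℂ)‖ ≤ X → |Lf a b (z n) - c| ≤ w)
    (hX : ‖(z 0 : ℂ)‖ + 1 + Real.exp (2 * ((4 * (3 * w + |c|) + 2) * (2 * D + 1))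
        * Real.log ((3 * w + |c|) ^ 2 + (2 + D) ^ 2)) * (‖(z 0 : ℂ)‖ + 2 * D + (3 * w + |c|) + 3)
        + D + 2 ≤ X - D - w - |c|) : False := by
  classical
  have hD : 0 ≤ D := le_trans (norm_nonneg _) (hstep 0)
  have hc0 : 0 ≤ |c| := abs_nonneg c
  have hz0 : 0 ≤ ‖(z 0 : ℂ)‖ := norm_nonneg _
  have hexp : 0 ≤ Real.exp (2 * ((4 * (3 * w + |c|) + 2) * (2 * D + 1))
        * Real.log ((3 * w + |c|) ^ 2 + (2 + D) ^ 2)) * (‖(z 0 : ℂ)‖ + 2 * D + (3 * w + |c|) + 3) := by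
    apply mul_nonneg (Real.exp_pos _).le; linarith
  -- the walk leaves the disc of radius X - D
  have hex : ∃ n, X - D < ‖(z n : ℂ)‖ := by
    by_contra hcon
    have hall : ∀ n, ‖(z n : ℂ)‖ ≤ X - D := fun n => not_lt.mp (fun h => hcon ⟨n, h⟩)
    have hfin : {n | (z n).norm ≤ ⌈(X - D) ^ 2⌉}.Finite :=
      Set.Finite.preimage (f := z) hinj.injOn (finite_norm_le _)
    have huniv : {n | (z n).norm ≤ ⌈(X - D) ^ 2⌉} = Set.univ := by
      refine Set.eq_univ_of_forall (fun n => ?_)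
      show (z n).norm ≤ ⌈(X - D) ^ 2⌉
      have h1 : ((z n).norm : ℝ) ≤ (X - D) ^ 2 := by
        rw [norm_real]
        exact pow_le_pow_left₀ (norm_nonneg _) (hall n) 2
      have h2 : ((z n).norm : ℝ) ≤ (⌈(X - D) ^ 2⌉ : ℝ) := le_trans h1 (Int.le_ceil _)
      exact_mod_cast h2
    rw [huniv] at hfin
    exact Set.infinite_univ hfin
  set m := Nat.find hex with hmdef
  have hm1 : X - D < ‖(z m : ℂ)‖ := Nat.find_spec hex
  have hm2 : ∀ n < m, ‖(z n : ℂ)‖ ≤ X - D := fun n hn => not_lt.mp (Nat.find_min hex hn)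
  have hm0 : m ≠ 0 := by
    intro h0
    rw [h0] at hm1
    linarith
  have hmX : ‖(z m : ℂ)‖ ≤ X := by
    obtain ⟨k, hk⟩ : ∃ k, m = k + 1 := ⟨m - 1, by omega⟩
    have h1 := hm2 k (by omega)
    have h2 := hstep k
    rw [hk]
    calc ‖(z (k + 1) : ℂ)‖ = ‖((z (k + 1) : ℂ) - (z k : ℂ)) + (z k : ℂ)‖ := by rw [sub_add_cancel]
      _ ≤ ‖(z (k + 1) : ℂ) - (z k : ℂ)‖ + ‖(z k : ℂ)‖ := norm_add_le _ _
      _ ≤ X := by linarith
  have hnear' : ∀ n ≤ m, |Lf a b (z n) - c| ≤ w := by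
    intro n hn
    rcases Nat.lt_or_ge n m with h | h
    · exact hnear n (by have := hm2 n h; linarith)
    · have : n = m := le_antisymm hn h
      rw [this]; exact hnear m hmX
  -- the longitudinal coordinate of z m is large
  have hLm : |Lf a b (z m)| ≤ w + |c| := by
    have e1 := abs_le.mp (hnear' m le_rfl)
    have e3 := neg_abs_le c
    have e4 := le_abs_self c
    rw [abs_le]
    constructor <;> linarith [e1.1, e1.2]
  have hSm : X - D - w - |c| < |Sf a b (z m)| := by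
    have hN := LS_norm a b hab (z m)
    rw [norm_real] at hN
    have h1 : ‖(z m : ℂ)‖ ≤ |Lf a b (z m)| + |Sf a b (z m)| := by
      apply le_of_sq_le_sq _ (by positivity)
      rw [← hN, add_sq, sq_abs, sq_abs]
      have : 0 ≤ |Lf a b (z m)| * |Sf a b (z m)| := by positivity
      nlinarith
    linarith
  rcases le_total 0 (Sf a b (z m)) with hpos | hneg
  · rw [abs_of_nonneg hpos] at hSm
    exact scale_pos a b c D w hab hD hw z hp hstep m hnear' (by linarith)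
  · rw [abs_of_nonpos hneg] at hSm
    have hab' : (-a) ^ 2 + (-b) ^ 2 = 1 := by rw [neg_sq, neg_sq]; exact hab
    have hL : ∀ g, Lf (-a) (-b) g = - Lf a b g := by intro g; simp only [Lf]; ring
    have hS : ∀ g, Sf (-a) (-b) g = - Sf a b g := by intro g; simp only [Sf]; ring
    refine scale_pos (-a) (-b) (-c) D w hab' hD hw z hp hstep m ?_ ?_
    · intro n hn
      rw [hL]
      have := hnear' n hn
      rw [show -Lf a b (z n) - -c = -(Lf a b (z n) - c) by ring, abs_neg]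
      exact this
    · rw [hS, abs_neg]
      linarith

/-- the numerical inequality needed at one scale -/
lemma star (c D n0 w X A K : ℝ) (hD : 0 ≤ D) (hn0 : 0 ≤ n0) (hw : 0 ≤ w) (hXpos : 0 < X)
    (hA : A = |c| + D + n0 + 3) (hK : K = 200 * A)
    (hG : K * (w + K) * Real.log (w + K) ≤ Real.log X) :
    n0 + 1 + Real.exp (2 * ((4 * (3 * w + |c|) + 2) * (2 * D + 1))
        * Real.log ((3 * w + |c|) ^ 2 + (2 + D) ^ 2)) * (n0 + 2 * D + (3 * w + |c|) + 3)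
        + D + 2 ≤ X - D - w - |c| := by
  have hc0 : 0 ≤ |c| := abs_nonneg c
  have hA3 : 3 ≤ A := by rw [hA]; linarith
  set t : ℝ := w + K with ht
  have htK : K ≤ t := by rw [ht]; linarith
  have ht600 : 600 ≤ t := by rw [hK] at htK; linarith
  have hlogt : 0 ≤ Real.log t := Real.log_nonneg (by linarith)
  set H : ℝ := 3 * w + |c| with hH
  have hH0 : 0 ≤ H := by rw [hH]; linarith
  have hH3 : H ≤ 3 * t := by rw [hH, ht, hK]; linarith
  set B : ℝ := H ^ 2 + (2 + D) ^ 2 with hB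
  have hB1 : 1 ≤ B := by rw [hB]; nlinarith [sq_nonneg H]
  have h2D : 2 + D ≤ t := by
    have : 2 + D ≤ A := by rw [hA]; linarith
    rw [hK] at htK; linarith
  have hBt : B ≤ t ^ 3 := by
    have h1 : H ^ 2 ≤ (3 * t) ^ 2 := pow_le_pow_left₀ hH0 hH3 2
    have h2 : (2 + D) ^ 2 ≤ t ^ 2 := pow_le_pow_left₀ (by linarith) h2D 2
    have h3 : 10 * t ^ 2 ≤ t ^ 3 := by
      have : t ^ 3 = t * t ^ 2 := by ring
      rw [this]
      exact mul_le_mul_of_nonneg_right (by linarith) (sq_nonneg t)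
    rw [hB]; nlinarith
  have hlogB0 : 0 ≤ Real.log B := Real.log_nonneg hB1
  have hlogB : Real.log B ≤ 3 * Real.log t := by
    have h1 := Real.log_le_log (by linarith) hBt
    rw [Real.log_pow] at h1
    exact_mod_cast h1
  set E : ℝ := (4 * H + 2) * (2 * D + 1) with hE
  have hE0 : 0 ≤ E := by rw [hE]; positivity
  have hEt : E ≤ 26 * A * t := by
    have h1 : 4 * H + 2 ≤ 13 * t := by linarith
    have h2 : 2 * D + 1 ≤ 2 * A := by rw [hA]; linarith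
    calc E ≤ (13 * t) * (2 * A) := by
          rw [hE]; exact mul_le_mul h1 h2 (by linarith) (by linarith)
      _ = 26 * A * t := by ring
  have hexpo : 2 * E * Real.log B ≤ 156 * A * t * Real.log t := by
    calc 2 * E * Real.log B ≤ (2 * (26 * A * t)) * (3 * Real.log t) := by
          apply mul_le_mul (by linarith) hlogB hlogB0 (by positivity)
      _ = 156 * A * t * Real.log t := by ring
  set Ex : ℝ := Real.exp (156 * A * t * Real.log t) with hEx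
  have hEx1 : 1 ≤ Ex := by
    rw [hEx]; apply Real.one_le_exp; positivity
  have hexp1 : Real.exp (2 * E * Real.log B) ≤ Ex := Real.exp_le_exp.mpr hexpo
  have hP : n0 + 2 * D + H + 3 ≤ 4 * t := by
    have : n0 + 2 * D + 3 ≤ 2 * A := by rw [hA]; linarith
    rw [hK] at htK; linarith
  have hP0 : 0 ≤ n0 + 2 * D + H + 3 := by linarith
  have hR : n0 + 3 + 2 * D + w + |c| ≤ 2 * t := by
    have : n0 + 3 + 2 * D + |c| ≤ 2 * A := by rw [hA]; linarith
    rw [ht, hK]; linarith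
  have hmain : Ex * (4 * t) + 2 * t ≤ X := by
    have h1 : Ex * (4 * t) + 2 * t ≤ Ex * t ^ 2 := by
      have h2 : 2 * t ≤ Ex * (2 * t) := by
        have : 0 ≤ 2 * t := by linarith
        nlinarith
      have h3 : Ex * (6 * t) ≤ Ex * t ^ 2 := by
        apply mul_le_mul_of_nonneg_left _ (by linarith)
        nlinarith
      linarith
    have h4 : Ex * t ^ 2 = Real.exp (156 * A * t * Real.log t + 2 * Real.log t) := by
      rw [Real.exp_add, hEx]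
      congr 1
      rw [two_mul, Real.exp_add, Real.exp_log (by linarith)]
      ring
    have h5 : 156 * A * t * Real.log t + 2 * Real.log t ≤ K * t * Real.log t := by
      rw [hK]
      have : 2 ≤ 44 * A * t := by nlinarith
      nlinarith
    have h6 : Real.exp (K * t * Real.log t) ≤ X := by
      calc Real.exp (K * t * Real.log t) ≤ Real.exp (Real.log X) := Real.exp_le_exp.mpr hG
        _ = X := Real.exp_log hXpos
    calc Ex * (4 * t) + 2 * t ≤ Ex * t ^ 2 := h1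
      _ = _ := h4
      _ ≤ Real.exp (K * t * Real.log t) := Real.exp_le_exp.mpr h5
      _ ≤ X := h6
  have hfin : Real.exp (2 * E * Real.log B) * (n0 + 2 * D + H + 3) ≤ Ex * (4 * t) :=
    mul_le_mul hexp1 hP hP0 (by linarith)
  linarith

theorem general (a b c D : ℝ) (hab : a ^ 2 + b ^ 2 = 1) (f : ℝ → ℝ) (x₁ : ℝ)
    (hmono : MonotoneOn f (Set.Ici x₁)) (hf0 : ∀ x, x₁ ≤ x → 0 ≤ f x)
    (hG : ∀ K : ℝ, 1 ≤ K →
      ∃ x, x₁ ≤ x ∧ 0 < x ∧ K * (f x + K) * Real.log (f x + K) ≤ Real.log x)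
    (z : ℕ → GaussianInt) (hinj : Function.Injective z) (hp : ∀ n, Prime (z n))
    (hstep : ∀ n, ‖((z (n + 1) : GaussianInt) : ℂ) - (z n : ℂ)‖ ≤ D)
    (hnear : ∀ᶠ n in Filter.atTop,
      |a * ((z n).re : ℝ) + b * ((z n).im : ℝ) - c| ≤ f ‖(z n : ℂ)‖) : False := by
  obtain ⟨n1, hn1⟩ := Filter.eventually_atTop.mp hnear
  have hfin : {n | (z n).norm ≤ ⌈x₁ ^ 2⌉}.Finite :=
    Set.Finite.preimage (f := z) hinj.injOn (finite_norm_le _)
  obtain ⟨n2, hn2⟩ := hfin.bddAbove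
  have hbig : ∀ n, n2 < n → x₁ ≤ ‖(z n : ℂ)‖ := by
    intro n hn
    by_contra hcon
    have h1 : ‖(z n : ℂ)‖ < x₁ := not_le.mp hcon
    have h2 : ((z n).norm : ℝ) ≤ x₁ ^ 2 := by
      rw [norm_real]
      exact pow_le_pow_left₀ (norm_nonneg _) h1.le 2
    have h3 : ((z n).norm : ℝ) ≤ (⌈x₁ ^ 2⌉ : ℝ) := le_trans h2 (Int.le_ceil _)
    have h4 : (z n).norm ≤ ⌈x₁ ^ 2⌉ := by exact_mod_cast h3
    have := hn2 h4
    omega
  set n0 := max n1 (n2 + 1) with hn0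
  set z' : ℕ → GaussianInt := fun n => z (n + n0) with hz'
  have hinj' : Function.Injective z' := by
    intro m n hmn
    have := hinj hmn
    omega
  have hstep' : ∀ n, ‖((z' (n + 1) : GaussianInt) : ℂ) - (z' n : ℂ)‖ ≤ D := by
    intro n
    have := hstep (n + n0)
    simpa [hz', add_right_comm] using this
  have hD : 0 ≤ D := le_trans (norm_nonneg _) (hstep 0)
  set A : ℝ := |c| + D + ‖(z' 0 : ℂ)‖ + 3 with hA
  have hA3 : 3 ≤ A := by
    have h1 := abs_nonneg c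
    have h2 := norm_nonneg (z' 0 : ℂ)
    rw [hA]; linarith
  obtain ⟨X, hX1, hXpos, hXG⟩ := hG (200 * A) (by linarith)
  have hw : 0 ≤ f X := hf0 X hX1
  refine scale a b c D hab z' hinj' (fun n => hp _) hstep' X (f X) hw ?_ ?_
  · intro n hn
    have h1 : n1 ≤ n + n0 := le_trans (le_max_left _ _) (Nat.le_add_left _ _)
    have h2 : n2 < n + n0 := by
      have : n2 + 1 ≤ n0 := le_max_right _ _
      omega
    have h3 := hn1 (n + n0) h1
    have h4 : x₁ ≤ ‖(z' n : ℂ)‖ := hbig (n + n0) h2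
    have h5 : f ‖(z' n : ℂ)‖ ≤ f X := hmono h4 hX1 hn
    exact le_trans h3 h5
  · exact star c D ‖(z' 0 : ℂ)‖ (f X) X A (200 * A) hD (norm_nonneg _) hw hXpos hA rfl hXG

theorem general_core (a b c D : ℝ) (hab : a ^ 2 + b ^ 2 = 1) (f : ℝ → ℝ) (x₁ : ℝ)
    (hmono : MonotoneOn f (Set.Ici x₁)) (hf0 : ∀ x, x₁ ≤ x → 0 ≤ f x)
    (hS : ∀ n0 : ℝ, 0 ≤ n0 → ∃ X, x₁ ≤ X ∧
      n0 + 1 + Real.exp (2 * ((4 * (3 * f X + |c|) + 2) * (2 * D + 1))
        * Real.log ((3 * f X + |c|) ^ 2 + (2 + D) ^ 2)) * (n0 + 2 * D + (3 * f X + |c|) + 3)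
        + D + 2 ≤ X - D - f X - |c|)
    (z : ℕ → GaussianInt) (hinj : Function.Injective z) (hp : ∀ n, Prime (z n))
    (hstep : ∀ n, ‖((z (n + 1) : GaussianInt) : ℂ) - (z n : ℂ)‖ ≤ D)
    (hnear : ∀ᶠ n in Filter.atTop,
      |a * ((z n).re : ℝ) + b * ((z n).im : ℝ) - c| ≤ f ‖(z n : ℂ)‖) : False := by
  obtain ⟨n1, hn1⟩ := Filter.eventually_atTop.mp hnear
  have hfin : {n | (z n).norm ≤ ⌈x₁ ^ 2⌉}.Finite :=
    Set.Finite.preimage (f := z) hinj.injOn (finite_norm_le _)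
  obtain ⟨n2, hn2⟩ := hfin.bddAbove
  have hbig : ∀ n, n2 < n → x₁ ≤ ‖(z n : ℂ)‖ := by
    intro n hn
    by_contra hcon
    have h1 : ‖(z n : ℂ)‖ < x₁ := not_le.mp hcon
    have h2 : ((z n).norm : ℝ) ≤ x₁ ^ 2 := by
      rw [norm_real]
      exact pow_le_pow_left₀ (norm_nonneg _) h1.le 2
    have h3 : ((z n).norm : ℝ) ≤ (⌈x₁ ^ 2⌉ : ℝ) := le_trans h2 (Int.le_ceil _)
    have h4 : (z n).norm ≤ ⌈x₁ ^ 2⌉ := by exact_mod_cast h3
    have := hn2 h4
    omega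
  set n0 := max n1 (n2 + 1) with hn0
  set z' : ℕ → GaussianInt := fun n => z (n + n0) with hz'
  have hinj' : Function.Injective z' := by
    intro m n hmn
    have := hinj hmn
    omega
  have hstep' : ∀ n, ‖((z' (n + 1) : GaussianInt) : ℂ) - (z' n : ℂ)‖ ≤ D := by
    intro n
    have := hstep (n + n0)
    simpa [hz', add_right_comm] using this
  obtain ⟨X, hX1, hXS⟩ := hS ‖(z' 0 : ℂ)‖ (norm_nonneg _)
  have hw : 0 ≤ f X := hf0 X hX1
  refine scale a b c D hab z' hinj' (fun n => hp _) hstep' X (f X) hw ?_ hXS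
  intro n hn
  have h1 : n1 ≤ n + n0 := le_trans (le_max_left _ _) (Nat.le_add_left _ _)
  have h2 : n2 < n + n0 := by
    have : n2 + 1 ≤ n0 := le_max_right _ _
    omega
  have h3 := hn1 (n + n0) h1
  have h4 : x₁ ≤ ‖(z' n : ℂ)‖ := hbig (n + n0) h2
  have h5 : f ‖(z' n : ℂ)‖ ≤ f X := hmono h4 hX1 hn
  exact le_trans h3 h5

end Vale.Agent.Lib.P015.Walls
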